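import Vale.Agent.P181.TW.Defs
import Vale.Agent.P181.SZ.Defs
import Vale.Agent.P181.PL.Defs

set_option autoImplicit false

/-!
# P181, ST: a short tail behind the second row, near the diagonal

`w = ∑ i, mu i` cells below row one, `mu 0` = row two, `nu = tl mu` = the rows from row three on,
`D = ∑ i, nu i ≤ a / 16`, `nu 0 ≥ 2`. Letters are labels `(i, j)`: `i` units of row two, `j` cells
behind row two. `G m nu P` is the multiplicity of `S_nu` in `⊗ Sym^mult (Sym^j ℂ^m)`, one factor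
for every label `(i, j)` of `P`.
-/

open MvPolynomial

namespace Vale.Agent.P181.ST

open Vale.Agent.P181.T4 (HW ex)
open Vale.Agent.P181.H280 (plethMult)
open Vale.Agent.P181.SZ (TI tl PT)
open Vale.Agent.P181.TW (NX)
open Vale.Agent.P181.PL (dn)

/-- Highest weight polynomials of weight `nu`, of degree `(lab j).2` in the column `j`, invariant
under the permutations of the columns which preserve the labels. -/
noncomputable def GP (m : ℕ) (σ : Type) [Fintype σ] (lab : σ → ℕ × ℕ) (nu : Fin m → ℕ) :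
    Submodule ℂ (MvPolynomial (Fin m × σ) ℂ) where
  carrier := {f | f ∈ HW m σ nu ∧ (∀ v, coeff v f ≠ 0 → ∀ j, ∑ i, v (i, j) = (lab j).2) ∧
    ∀ e : Equiv.Perm σ, (∀ j, lab (e j) = lab j) →
      rename (fun p : Fin m × σ => (p.1, e p.2)) f = f}
  zero_mem' := ⟨zero_mem _, fun v hv => absurd (coeff_zero v) hv, fun e _ => map_zero _⟩
  add_mem' := by
    rintro f g ⟨hf1, hf2, hf3⟩ ⟨hg1, hg2, hg3⟩
    refine ⟨add_mem hf1 hg1, fun v hv j => ?_, fun e he => by rw [map_add, hf3 e he, hg3 e he]⟩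
    rw [coeff_add] at hv
    by_cases h : coeff v f = 0
    · rw [h, zero_add] at hv
      exact hg2 v hv j
    · exact hf2 v h j
  smul_mem' := by
    rintro c f ⟨hf1, hf2, hf3⟩
    refine ⟨Submodule.smul_mem _ c hf1, fun v hv j => ?_, fun e he => ?_⟩
    · rw [coeff_smul, smul_eq_mul] at hv
      exact hf2 v (right_ne_zero_of_mul hv) j
    · rw [map_smul, hf3 e he]

lemma mem_GP {m : ℕ} {σ : Type} [Fintype σ] {lab : σ → ℕ × ℕ} {nu : Fin m → ℕ}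
    {f : MvPolynomial (Fin m × σ) ℂ} : f ∈ GP m σ lab nu ↔ f ∈ HW m σ nu ∧
      (∀ v, coeff v f ≠ 0 → ∀ j, ∑ i, v (i, j) = (lab j).2) ∧
      ∀ e : Equiv.Perm σ, (∀ j, lab (e j) = lab j) →
        rename (fun p : Fin m × σ => (p.1, e p.2)) f = f := Iff.rfl

instance finiteDimensional_GP (m : ℕ) (σ : Type) [Fintype σ] (lab : σ → ℕ × ℕ)
    (nu : Fin m → ℕ) : FiniteDimensional ℂ (GP m σ lab nu) :=
  Submodule.finiteDimensional_of_le (S₂ := HW m σ nu) fun _ h => h.1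

/-- The multiplicity for a multiset of labels. -/
noncomputable def G (m : ℕ) (nu : Fin m → ℕ) (P : Multiset (ℕ × ℕ)) : ℕ :=
  Module.finrank ℂ (GP m (Fin P.toList.length) (fun j => P.toList.get j) nu)

/-- The multisets of labels `(i, j)` with `i + j ≥ 2`, `∑ i = I` and `∑ j = J`. -/
noncomputable def LT (I J : ℕ) : Finset (Multiset (ℕ × ℕ)) :=
  (((I + J) • (Finset.range (I + 1) ×ˢ Finset.range (J + 1)).val).powerset.toFinset).filter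
    fun P => (∀ x ∈ P, 2 ≤ x.1 + x.2) ∧ (P.map Prod.fst).sum = I ∧ (P.map Prod.snd).sum = J

/-- One more unit in every letter. -/
def up (P : Multiset (ℕ × ℕ)) : Multiset (ℕ × ℕ) := P.map fun x => (x.1 + 1, x.2)

/-- The surplus function: one more letter `(0, 2)`. -/
noncomputable def G2 (m : ℕ) (nu : Fin m → ℕ) (P : Multiset (ℕ × ℕ)) : ℕ :=
  G m nu ((0, 2) ::ₘ up P)

/-- Typical: all letters `≤ a - 3`, and less than about `n / 3` letters. -/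
def Typ (a n D : ℕ) (P : Multiset (ℕ × ℕ)) : Prop :=
  (∀ x ∈ P, x.1 + x.2 + 3 ≤ a) ∧ 3 * Multiset.card P + D + 7 ≤ n

/-- **(T0)** transport. -/
def Trans : Prop := ∀ (m : ℕ) (σ : Type) [Fintype σ] (lab : σ → ℕ × ℕ) (nu : Fin m → ℕ),
  Module.finrank ℂ (GP m σ lab nu) = G m nu (Finset.univ.val.map lab)

/-- **(T1)** upper bound: coefficient of `x_(0,none) ^ n`, then the component with the fewest
nonzero columns; no column of degree one occurs in it. -/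
def UpG : Prop := ∀ (m n t : ℕ) (mu : Fin (m + 1) → ℕ),
  NX (m + 1) n t mu ≤
    if n ≤ mu 0 then ∑ P ∈ LT (mu 0 - n) (∑ i, tl mu i), G m (tl mu) P else 0

/-- **(T2)** lower bound: `n + 1` points, all different from zero. -/
def LowG : Prop := ∀ (a n m : ℕ) (mu : Fin (m + 1) → ℕ) (L : Finset (Multiset (ℕ × ℕ))),
  n + 1 ≤ 2 * a → ∑ i, tl mu i ≤ a →
  (∀ P ∈ L, (∀ x ∈ P, ((1 ≤ x.1 ∧ 3 ≤ x.1 + x.2) ∨ (x.1 = 0 ∧ 2 ≤ x.2)) ∧ x.1 + x.2 + 2 ≤ a) ∧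
    3 * Multiset.card P + ∑ i, tl mu i + 4 ≤ n + 1 ∧
    (P.map Prod.fst).sum + (n + 1) = mu 0 + Multiset.card P ∧
    (P.map Prod.snd).sum = ∑ i, tl mu i) →
  Module.finrank ℂ (TI n a (m + 1) mu) + ∑ P ∈ L, G m (tl mu) P ≤
    Module.finrank ℂ (TI (n + 1) a (m + 1) mu)

/-- **(T3)** relabelling. -/
def Relab : Prop := ∀ (m : ℕ) (nu : Fin m → ℕ) (P : Multiset (ℕ × ℕ)) (f : ℕ × ℕ → ℕ × ℕ),
  (∀ x ∈ P, ∀ y ∈ P, f x = f y → x = y) → (∀ x ∈ P, (f x).2 = x.2) → G m nu (P.map f) = G m nu P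

/-- **(T4)** letters without cells behind row two do not matter. -/
def Pure : Prop := ∀ (m : ℕ) (nu : Fin m → ℕ) (P Q : Multiset (ℕ × ℕ)), (∀ x ∈ Q, x.2 = 0) →
  G m nu (Q + P) = G m nu P

/-- **(T5)** a new label. -/
def Fresh : Prop := ∀ (m : ℕ) (nu : Fin m → ℕ) (P : Multiset (ℕ × ℕ)) (i i' j : ℕ),
  (i', j) ∉ P → G m nu ((i, j) ::ₘ P) ≤ G m nu ((i', j) ::ₘ P)

open scoped Classical in
/-- **(T6)** two boxes: `v ↦ (y · ∂_x) (y · ∂_x') v`, `y` a new column of degree two. `Q1 x` is the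
result for one letter `x`, `Q2 x x'` the result for two letters. -/
def TwoBox : Prop := ∀ (m : ℕ) (nu : Fin (m + 1) → ℕ) (P : Multiset (ℕ × ℕ)) (z : ℕ)
  (f1 : ℕ × ℕ → ℕ) (f2 f3 : ℕ × ℕ → ℕ × ℕ → ℕ), 2 ≤ nu 0 →
  (∀ x ∈ P, 2 ≤ x.2 → (f1 x, x.2 - 2) ∉ P ∧ (z, 2) ∉ (f1 x, x.2 - 2) ::ₘ P) →
  (∀ x ∈ P, ∀ y ∈ P.erase x, 1 ≤ x.2 → 1 ≤ y.2 → (f2 x y, x.2 - 1) ∉ P ∧
    (f3 x y, y.2 - 1) ∉ (f2 x y, x.2 - 1) ::ₘ P ∧
    (z, 2) ∉ (f2 x y, x.2 - 1) ::ₘ (f3 x y, y.2 - 1) ::ₘ P) →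
  G (m + 1) nu P ≤
    ∑ x ∈ P.toFinset.filter (fun x => 2 ≤ x.2),
      G (m + 1) nu ((z, 2) ::ₘ (f1 x, x.2 - 2) ::ₘ P.erase x) +
    ∑ p ∈ (P.toFinset ×ˢ P.toFinset).filter
        (fun p => p.2 ∈ P.erase p.1 ∧ 1 ≤ p.1.2 ∧ 1 ≤ p.2.2),
      G (m + 1) nu ((z, 2) ::ₘ (f2 p.1 p.2, p.1.2 - 1) ::ₘ (f3 p.1 p.2, p.2.2 - 1) ::ₘ
        (P.erase p.1).erase p.2)

/-- **(T7)** pure counting: partitions without parts equal to one. -/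
def PureH : Prop := ∀ w d X K Q s t : ℕ, 1 ≤ K → 16 * K ^ 2 ≤ X → w * X ^ 4 ≤ d ^ 2 → 2 ≤ d →
  Q * (4 * w + 4) ≤ X ^ K → s + d ≤ t → t ≤ w → Q * (PT s).card ≤ (PT t).card

/-- `Relab`, `Pure`, `Fresh`, `TwoBox` for an abstract function. -/
structure Ops (g : Multiset (ℕ × ℕ) → ℕ) : Prop where
  relab : ∀ (P : Multiset (ℕ × ℕ)) (f : ℕ × ℕ → ℕ × ℕ),
    (∀ x ∈ P, ∀ y ∈ P, f x = f y → x = y) → (∀ x ∈ P, (f x).2 = x.2) → g (P.map f) = g P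
  pure : ∀ P Q : Multiset (ℕ × ℕ), (∀ x ∈ Q, x.2 = 0) → g (Q + P) = g P
  fresh : ∀ (P : Multiset (ℕ × ℕ)) (i i' j : ℕ), (i', j) ∉ P → g ((i, j) ::ₘ P) ≤ g ((i', j) ::ₘ P)
  two : ∀ (P : Multiset (ℕ × ℕ)) (z : ℕ) (f1 : ℕ × ℕ → ℕ) (f2 f3 : ℕ × ℕ → ℕ × ℕ → ℕ),
    (∀ x ∈ P, 2 ≤ x.2 → (f1 x, x.2 - 2) ∉ P ∧ (z, 2) ∉ (f1 x, x.2 - 2) ::ₘ P) →
    (∀ x ∈ P, ∀ y ∈ P.erase x, 1 ≤ x.2 → 1 ≤ y.2 → (f2 x y, x.2 - 1) ∉ P ∧
      (f3 x y, y.2 - 1) ∉ (f2 x y, x.2 - 1) ::ₘ P ∧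
      (z, 2) ∉ (f2 x y, x.2 - 1) ::ₘ (f3 x y, y.2 - 1) ::ₘ P) →
    g P ≤
      ∑ x ∈ P.toFinset.filter (fun x => 2 ≤ x.2),
        g ((z, 2) ::ₘ (f1 x, x.2 - 2) ::ₘ P.erase x) +
      ∑ p ∈ (P.toFinset ×ˢ P.toFinset).filter
          (fun p => p.2 ∈ P.erase p.1 ∧ 1 ≤ p.1.2 ∧ 1 ≤ p.2.2),
        g ((z, 2) ::ₘ (f2 p.1 p.2, p.1.2 - 1) ::ₘ (f3 p.1 p.2, p.2.2 - 1) ::ₘ
          (P.erase p.1).erase p.2)

open scoped Classical in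
/-- **(T8a)** the bad types which are not typical. -/
def CntA : Prop := ∀ (g : Multiset (ℕ × ℕ) → ℕ), Ops g → ∀ a n w M D X K : ℕ, 1 ≤ K →
  16 * K ^ 2 ≤ X → 10 ^ 6 ≤ X → w * X ^ 5 ≤ a ^ 2 → (w + 10) ^ 20 ≤ X ^ K → 2 ≤ D → 16 * D ≤ a →
  a < n → M + D ≤ w →
  4 * ∑ P ∈ (LT M D).filter (fun P => ¬ Typ a n D P), g P ≤
    ∑ P ∈ LT (M + 1) (D - 2), g ((0, 2) ::ₘ up P)

open scoped Classical in
/-- **(T8b)** the surplus types which are not typical. -/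
def CntB : Prop := ∀ (g : Multiset (ℕ × ℕ) → ℕ), Ops g → ∀ a n w M D X K : ℕ, 1 ≤ K →
  16 * K ^ 2 ≤ X → 10 ^ 6 ≤ X → w * X ^ 5 ≤ a ^ 2 → (w + 10) ^ 20 ≤ X ^ K → 2 ≤ D → 16 * D ≤ a →
  a < n → M + D ≤ w →
  2 * ∑ P ∈ (LT (M + 1) (D - 2)).filter (fun P => ¬ Typ a n D P), g ((0, 2) ::ₘ up P) ≤
    ∑ P ∈ LT (M + 1) (D - 2), g ((0, 2) ::ₘ up P)

/-- **(T9)** the assembly. -/
def AsmS : Prop := ∀ (a b m X K : ℕ) (mu : Fin (m + 2) → ℕ), 1 ≤ K → 16 * K ^ 2 ≤ X →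
  10 ^ 6 ≤ X → (∑ i, mu i) * X ^ 5 ≤ a ^ 2 → (∑ i, mu i + 10) ^ 20 ≤ X ^ K → a ≤ b → b ≤ 2 * a →
  2 ≤ tl mu 0 → 16 * ∑ i, tl mu i ≤ a →
  Module.finrank ℂ (TI a b (m + 2) mu) ≤ Module.finrank ℂ (TI b a (m + 2) mu)

/-- **(T10)** the theorem. -/
def ShortTail : Prop := ∃ (C : ℝ) (c : ℕ), 0 < C ∧ ∀ a b : ℕ, a ≤ b →
  ∀ (n : ℕ) (lam : Fin n → ℕ), 2 ≤ ex lam 2 → 16 * dn lam 2 ≤ a →
  C * (1 + Real.log a) ^ c * (dn lam 1 : ℝ) ≤ (a : ℝ) ^ 2 →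
  plethMult a b n lam ≤ plethMult b a n lam

end Vale.Agent.P181.ST
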